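import Vale.Agent.P216.H269.KOut
import Vale.Agent.P216.H828C.Out2
import Vale.Agent.P216.Q633.Quat
import Vale.Agent.P216.H539.MooreB

/-!
# From [GOM] and `XOut2` to the contract `KOut`, and the field `d2` in the frame `HU k (XL M t)`

`f : M → S³` is `K`-Lipschitz, `q = qm f`, levels `Y (K j)`.
* `G1P`: the odd cohomology of the tower `Y` is ephemeral (779);
* `G2P`: `om j s` on the based Moore loops is the pullback of a class of `Y (K s)` (311);
* `G3P`: `gM^* q^*` is injective on the tower `Y`, up to a shift (779).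
-/

namespace Vale.Agent.P216.H269

open AS B64 Set GM L250 Q633 H828C BoundedContinuousFunction

section Props

/-- [GOM] (G1) -/
def G1P (k : Type) [Field k] : Prop :=
  ∀ s : ℝ, ∃ s' : ℝ, ∃ h : s ≤ s', ∀ q : ℕ, q % 2 = 1 → ∀ z : HU k (Y s') q,
    hres k (Y_mono h) q z = 0

variable {M : Type} [MetricSpace M] {f : C(M, S3)} {K : ℝ} (hK : 0 ≤ K)
  (hf : ∀ x y, dist (f x) (f y) ≤ K * dist x y)

/-- [GOM] (G2) -/
def G2P {x₀ : M} {B : ℝ} {k : Type} [Field k] (O : OmegaOut M 2 x₀ B k) : Prop :=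
  ∀ (j : ℕ) (s : ℝ), 0 < s → j * B ≤ s →
    ∀ hg : UMap (PS.P x₀ x₀ s) (XL M s) (MR.gM s),
      O.om j s ≠ 0 ∧ ∃ y : HU k (Y (K * s)) (j * 2),
        hpull k hg (j * 2) (hpull k (umap_qm hK hf s) (j * 2) y) = O.om j s

/-- [GOM] (G3) -/
def G3P (x₀ : M) (k : Type) [Field k] : Prop :=
  ∀ s : ℝ, ∃ s' : ℝ, ∃ h : s ≤ s', ∃ T : ℝ, 0 < T ∧ ∃ hT : K * T ≤ s',
    ∀ hg : UMap (PS.P x₀ x₀ T) (XL M T) (MR.gM T), ∀ (q : ℕ) (z : HU k (Y s') q),
      hpull k hg q (hpull k (umap_qm hK hf T) q (hres k (Y_mono hT) q z)) = 0 →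
        hres k (Y_mono h) q z = 0

end Props

variable {M : Type} [MetricSpace M] [CompactSpace M]

theorem umap_gM (x₀ : M) {s : ℝ} (hs : 0 < s) : UMap (PS.P x₀ x₀ s) (XL M s) (MR.gM s) := by
  have h1 := H550.hp_isMap_left (MR.g_nat (M := M) hs (le_refl s) (le_refl s))
  refine IsMap.mono h1 MV337.P_subset_FL fun w hw => ?_
  change MR.gM s w ∈ XE M (max s 0)
  rw [max_eq_left hs.le]
  exact h1.mapsX (MV337.P_subset_FL hw)

/-- naturality of `gM^*` -/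
theorem gM_res (x₀ : M) {k : Type} [Field k] {s t : ℝ} (hs : 0 < s) (h : s ≤ t) (q : ℕ)
    (z : HU k (XL M t) q) :
    hpull k (umap_gM x₀ hs) q (hres k (XL_mono h) q z) =
      hres k (PS.P_mono h) q (hpull k (umap_gM x₀ (hs.trans_le h)) q z) := by
  obtain ⟨D, hD, -, h0, h1⟩ := MR.g_nat (M := M) hs h (le_refl t)
  have ht : 0 < t := hs.trans_le h
  have hX : XL M t = XE M t := by
    change XE M (max t 0) = XE M t
    rw [max_eq_left ht.le]
  have hsub : PS.P x₀ x₀ s ⊆ MV337.FL M s := MV337.P_subset_FL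
  have hD' : IsHtpy (a0 (ℝ →ᵇ M)) (a0 (LM M)) (PS.P x₀ x₀ s) (XL M t) D :=
    hD.mono hsub fun r hr w hw => by
      rw [hX]
      exact hD.mapsX r hr (hsub hw)
  have e := LinearMap.congr_fun (pull_homotopy (χ := c0 k) hD' q) z
  have e0 : pull (c0 k) hD'.zero q z =
      hpull k (umap_gM x₀ hs) q (hres k (XL_mono h) q z) := by
    have m0 : UMap (PS.P x₀ x₀ s) (XL M t) (MR.gM s) :=
      (IsMap.id_of_subset (XL_mono h)).comp (umap_gM x₀ hs)
    rw [pull_congr hD'.zero m0 fun w hw => h0 (hsub hw)]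
    obtain ⟨c, hc, rfl⟩ := H.exists_mk z
    rfl
  have e1 : pull (c0 k) hD'.one q z =
      hres k (PS.P_mono h) q (hpull k (umap_gM x₀ ht) q z) := by
    have m1 : UMap (PS.P x₀ x₀ s) (XL M t) (MR.gM t) :=
      (umap_gM x₀ ht).comp (IsMap.id_of_subset (PS.P_mono h))
    rw [pull_congr hD'.one m1 fun w hw => h1 (hsub hw)]
    obtain ⟨c, hc, rfl⟩ := H.exists_mk z
    rfl
  rw [← e0, ← e1, e]

variable {f : C(M, S3)} {K : ℝ} (hK : 0 < K) (hf : ∀ x y, dist (f x) (f y) ≤ K * dist x y)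
  {k : Type} [Field k]

include hK hf in
omit [CompactSpace M] in
theorem umap_q {t : ℝ} {j : ℕ} (h : t ≤ j) : UMap (XL M t) (Y (K * j)) (qm f) :=
  (umap_qm hK.le hf (j : ℝ)).mono (XL_mono h) fun _ hg =>
    (umap_qm hK.le hf (j : ℝ)).mapsX (XL_mono h hg)

variable {B : ℝ}

/-- **[G2]** the even global classes come from the tower `Y`. -/
theorem exists_lift (hB : 0 ≤ B) {x₀ : M} {B' : ℝ} {O : OmegaOut M 2 x₀ B' k}
    (G2 : G2P hK.le hf O) (X : XOut2 M B k) {n : ℕ} (hn : n % 2 = 0) (t : ℝ) (j : ℕ) :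
    ∃ j' : ℕ, j ≤ j' ∧ ∃ h : t ≤ (j' : ℝ),
      ∃ c : HU k (Y (K * j')) n, hpull k (umap_q hK hf h) n c = X.g n t := by
  obtain ⟨m, rfl⟩ : ∃ m, n = m * 2 := ⟨n / 2, by omega⟩
  obtain ⟨j', hj'⟩ := exists_nat_ge (max (max (j : ℝ) (t + |B|)) (max (m * B' + |B| + 1) (|B| + 1)))
  have h1 : (j : ℝ) ≤ j' := (le_max_left _ _).trans ((le_max_left _ _).trans hj')
  have h2 : t + |B| ≤ j' := (le_max_right _ _).trans ((le_max_left _ _).trans hj')
  have h3 : m * B' + |B| + 1 ≤ j' := (le_max_left _ _).trans ((le_max_right _ _).trans hj')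
  have h4 : |B| + 1 ≤ (j' : ℝ) := (le_max_right _ _).trans ((le_max_right _ _).trans hj')
  have hb : 0 ≤ |B| := abs_nonneg B
  have hj0 : (0 : ℝ) < j' := by linarith
  obtain ⟨hne, y, hy⟩ := G2 m j' hj0 (by linarith) (umap_gM x₀ hj0)
  obtain ⟨s, hs⟩ : ∃ s : ℝ, s = (j' : ℝ) - |B| := ⟨_, rfl⟩
  have hBb := le_abs_self B
  have hs0 : 0 < s := by linarith
  have hsj : s ≤ j' := by linarith
  have hts : t ≤ s := by linarith
  set Z := hpull k (umap_qm hK.le hf (j' : ℝ)) (m * 2) y with hZ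
  -- `span` at the level `s`
  have hspan : ∃ c : k, hres k (XL_mono hsj) (m * 2) Z = c • X.g (m * 2) s := by
    obtain ⟨c, hc⟩ := X.span (m * 2) s hs0.le (XL_mono (by linarith))
      (hres k (XL_mono (show s + B ≤ j' by linarith)) (m * 2) Z)
    exact ⟨c, by rw [← hc, res_res]⟩
  obtain ⟨c, hc⟩ := hspan
  have hc0 : c ≠ 0 := by
    rintro rfl
    rw [zero_smul] at hc
    have e := gM_res x₀ hs0 hsj (m * 2) Z
    rw [hc, map_zero, hy, O.res_om m s j' hsj] at e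
    exact (G2 m s hs0 (by linarith) (umap_gM x₀ hs0)).1 e.symm
  refine ⟨j', by exact_mod_cast h1, hts.trans hsj, c⁻¹ • y, ?_⟩
  have e1 : hpull k (umap_q hK hf (hts.trans hsj)) (m * 2) y =
      hres k (XL_mono hts) (m * 2) (hres k (XL_mono hsj) (m * 2) Z) := by
    obtain ⟨y, hy', rfl⟩ := H.exists_mk y
    rfl
  rw [map_smul, e1, hc, map_smul, X.res_g _ t s hts, smul_smul, inv_mul_cancel₀ hc0, one_smul]

/-- (G1), real-indexed -/
theorem g1r (G1 : G1P k) (n : ℕ) (hn : n % 2 = 1) (s : ℝ) : ∃ s' : ℝ, ∃ h : s ≤ s',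
    ∀ z : HU k (Y s') n, hres k (Y_mono h) n z = 0 := by
  obtain ⟨s', h, hG⟩ := G1 s
  exact ⟨s', h, hG n hn⟩

/-- (G2), real-indexed -/
theorem g2r (hB : 0 ≤ B) {x₀ : M} {B' : ℝ} {O : OmegaOut M 2 x₀ B' k}
    (G2 : G2P hK.le hf O) (X : XOut2 M B k) (n : ℕ) (hn : n % 2 = 0) (t s : ℝ) :
    ∃ s' : ℝ, s ≤ s' ∧ ∃ _h : K * t ≤ s', ∃ c : HU k (Y s') n,
      ∀ hq : UMap (XL M t) (Y s') (qm f), hpull k hq n c = X.g n t := by
  obtain ⟨j, hj⟩ := exists_nat_ge (s / K)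
  obtain ⟨j', h1, h2, c, hc⟩ := exists_lift hK hf hB G2 X hn t j
  refine ⟨K * j', ?_, mul_le_mul_of_nonneg_left h2 hK.le, c, fun hq => hc⟩
  have h3 : s / K ≤ j' := hj.trans (Nat.cast_le.2 h1)
  rwa [div_le_iff₀' hK] at h3

/-- **The contract `KOut` from [GOM].** -/
noncomputable def kOut (hB : 0 ≤ B) {x₀ : M} {B' : ℝ} {O : OmegaOut M 2 x₀ B' k}
    (G1 : G1P k) (G2 : G2P hK.le hf O) (G3 : G3P hK.le hf x₀ k) (X : XOut2 M B k) :
    KOut k (XL M) (L250.rev : LM M → LM M) X.g where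
  E' := EY
  K j := Y (K * j)
  mono _ _ h := Y_mono (mul_le_mul_of_nonneg_left (Nat.cast_le.2 h) hK.le)
  θ' := rv
  uθ' _ := umap_rv _
  θθ' _ w _ := rv_rv w
  q := qm f
  uq _ _ h := umap_q hK hf h
  qθ _ g _ := qm_rev f g
  G1 n hn j := by
    obtain ⟨s', h, hG⟩ := G1 (K * j)
    obtain ⟨j', hj'⟩ := exists_nat_ge (max (j : ℝ) (s' / K))
    have h1 : j ≤ j' := Nat.cast_le.1 ((le_max_left _ _).trans hj')
    have h2 : s' ≤ K * j' := by
      have := (le_max_right _ _).trans hj'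
      rwa [div_le_iff₀' hK] at this
    refine ⟨j', h1, fun y => ?_⟩
    have := hG n hn (hres k (Y_mono h2) n y)
    rwa [res_res] at this
  G2 n hn t j := exists_lift hK hf hB G2 X hn t j
  G3 n hn j := by
    obtain ⟨s', h, T, hT0, hT, hG⟩ := G3 (K * j)
    obtain ⟨j', hj'⟩ := exists_nat_ge (max (j : ℝ) (max (s' / K) T))
    have h1 : j ≤ j' := Nat.cast_le.1 ((le_max_left _ _).trans hj')
    have h2 : s' ≤ K * j' := by
      have := ((le_max_left _ _).trans (le_max_right _ _)).trans hj'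
      rwa [div_le_iff₀' hK] at this
    have h3 : T ≤ j' := ((le_max_right _ _).trans (le_max_right _ _)).trans hj'
    refine ⟨j', h1, T, h3, fun z hz => ?_⟩
    have e : hpull k (umap_qm hK.le hf T) n (hres k (Y_mono hT) n (hres k (Y_mono h2) n z)) =
        hpull k (umap_q hK hf h3) n z := by
      obtain ⟨z, hz', rfl⟩ := H.exists_mk z
      rfl
    have := hG (umap_gM x₀ hT0) n (hres k (Y_mono h2) n z) (by rw [e, hz, map_zero])
    rwa [res_res] at this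

end Vale.Agent.P216.H269
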