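import Vale.Agent.P216.AS.Cx

/-!
# The cochain lemma behind `d₂ = 0` (Theorem C of P216, characteristic two)

`T ≤ S ≤ R` are subcomplexes (cochains vanishing on `X_t`, cochains vanishing on `X_s`, all
cochains), so `H R T = H(X_t)`, `H S T = H(X_t, X_s)`, `H R S = H(X_s)`; `th` is a strict involution
(modulo `T`). If the class `x = [c]` of `H(X_t)` has `(1 + th) c = d b` and `(1 + th) b = d e`, and
`s ∈ H(X_t, X_s)` maps to `x`, then every `om ∈ H(X_s)` with `δ om = s + th s` has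
`om + th om = (om' + th om')|X_s` for some `om' ∈ H(X_t)`.
-/

namespace Vale.Agent.P216.H269

open AS

variable {k : Type} [Field k] {C C' : Amb k}

theorem two_zero (h2 : (2 : k) = 0) {V : Type} [AddCommGroup V] [Module k V] (x : V) :
    x + x = 0 := by
  rw [← two_smul k x, h2, zero_smul]

theorem neg_self (h2 : (2 : k) = 0) {V : Type} [AddCommGroup V] [Module k V] (x : V) :
    -x = x := neg_eq_of_add_eq_zero_left (two_zero h2 x)

/-- **The cochain lemma.** -/
theorem d2_cochain (h2 : (2 : k) = 0) {T S R : Sub C} (hTS : T ≤ S) (hSR : S ≤ R)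
    {th : ∀ n, C.K n →ₗ[k] C.K n} (hRT : IsMor R T R T th) (hST : IsMor S T S T th)
    (hRS : IsMor R S R S th) (hth : ∀ n, ∀ x ∈ R n, th n (th n x) - x ∈ T n) {n : ℕ}
    {c : C.K (n + 2)} (hc : c ∈ Zc R T (n + 2)) {b : C.K (n + 1)} (hb : b ∈ R (n + 1))
    (hcb : c + th (n + 2) c - C.d (n + 1) b ∈ T (n + 2)) {e : C.K n} (he : e ∈ R n)
    (hbe : b + th (n + 1) b - C.d n e ∈ T (n + 1))
    {s : H S T (n + 2)} (hs : Hinc hSR le_rfl (n + 2) s = H.mk c hc)
    {om : H R S (n + 1)} (hom : Hdel R S T (n + 1) om = s + Hmap hST (n + 2) s) :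
    ∃ om' : H R T (n + 1), Hinc le_rfl hTS (n + 1) (om' + Hmap hRT (n + 1) om') =
      om + Hmap hRS (n + 1) om := by
  obtain ⟨σ, hσ, rfl⟩ := H.exists_mk s
  obtain ⟨w, hw, rfl⟩ := H.exists_mk om
  rw [Hinc_mk, H.mk_eq_mk, mem_Bc_succ] at hs
  obtain ⟨h, hh, hs⟩ := hs
  rw [Hdel_mk, Hmap_mk, ← H.mk_add, H.mk_eq_mk, mem_Bc_succ] at hom
  obtain ⟨κ, hκ, hom⟩ := hom
  -- the cocycle
  have hthh : th (n + 1) h ∈ R (n + 1) := hRT.mapS hh
  have hmem : w - κ - b - (h + th (n + 1) h) ∈ R (n + 1) :=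
    Submodule.sub_mem _ (Submodule.sub_mem _ (Submodule.sub_mem _ hw.1 (hSR _ hκ)) hb)
      (Submodule.add_mem _ hh hthh)
  have hcoc : w - κ - b - (h + th (n + 1) h) ∈ Zc R T (n + 1) := by
    refine ⟨hmem, ?_⟩
    change C.d (n + 1) (w - κ - b - (h + th (n + 1) h)) ∈ T (n + 2)
    have e1 := hRT.mapT hs
    have e2 := hRT.comm hh
    have key := Submodule.add_mem _ (Submodule.add_mem _ (Submodule.add_mem _ hom hs)
      (Submodule.sub_mem _ e1 e2)) hcb
    convert key using 1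
    simp only [map_sub, map_add]
    abel
  refine ⟨H.mk _ hcoc, ?_⟩
  rw [Hmap_mk, ← H.mk_add, Hinc_mk, Hmap_mk, ← H.mk_add, H.mk_eq_mk, mem_Bc_succ]
  refine ⟨e, he, ?_⟩
  have k1 : κ + th (n + 1) κ ∈ S (n + 1) := Submodule.add_mem _ hκ (hST.mapS hκ)
  have k2 := hTS _ hbe
  have k3 := hTS _ (hth (n + 1) h hh)
  have k4 := Submodule.sub_mem _ (Submodule.sub_mem _ (Submodule.neg_mem _ k1) k2) k3
  convert k4 using 1
  have z1 : C.d n e + C.d n e = 0 := two_zero h2 _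
  have z2 : h + h = 0 := two_zero h2 _
  have z3 : th (n + 1) h + th (n + 1) h = 0 := two_zero h2 _
  simp only [map_sub, map_add]
  have : (w - κ - b - (h + th (n + 1) h) +
      (th (n + 1) w - th (n + 1) κ - th (n + 1) b - (th (n + 1) h + th (n + 1) (th (n + 1) h))) -
      (w + th (n + 1) w) - C.d n e) - (-(κ + th (n + 1) κ) - (b + th (n + 1) b - C.d n e) -
      (th (n + 1) (th (n + 1) h) - h)) =
      -(C.d n e + C.d n e) - (h + h) - (th (n + 1) h + th (n + 1) h) := by abel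
  rw [← sub_eq_zero, this, z1, z2, z3]
  simp

end Vale.Agent.P216.H269
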