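import Vale.Agent.P216.AS.Htpy
import Vale.Agent.P216.H269.D2

/-!
# `d₂ = 0` for classes pulled back from a space with no odd cohomology
-/

namespace Vale.Agent.P216.H269

open AS Set

section Abs

variable {k : Type} [Field k] {C C' : Amb k}

/-- The cochains `b`, `e` for a class coming from a space `Y` with vanishing cohomology in degree
`n + 1` (three levels `Y₃ ⊇ Y₂ ⊇ Y₁`). -/
theorem exists_b_e (h2 : (2 : k) = 0) {R₃ T₃ R₂ T₂ R₁ T₁ : Sub C}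
    (hR₃ : R₃ ≤ R₂) (hT₃ : T₃ ≤ T₂) (hR₂ : R₂ ≤ R₁) (hT₂ : T₂ ≤ T₁)
    {th : ∀ n, C.K n →ₗ[k] C.K n} (h₃ : IsMor R₃ T₃ R₃ T₃ th) (h₂ : IsMor R₂ T₂ R₂ T₂ th)
    (hth : ∀ n, ∀ x ∈ R₂ n, th n (th n x) - x ∈ T₂ n) {n : ℕ}
    (hodd : ∀ y : H R₂ T₂ (n + 1), Hinc hR₂ hT₂ (n + 1) y = 0)
    {c : C.K (n + 2)} (hc : c ∈ Zc R₃ T₃ (n + 2))
    (hx : Hinc hR₃ hT₃ (n + 2) (Hmap h₃ (n + 2) (H.mk c hc)) = Hinc hR₃ hT₃ (n + 2) (H.mk c hc)) :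
    ∃ b ∈ R₁ (n + 1), ∃ e ∈ R₁ n, c + th (n + 2) c - C.d (n + 1) b ∈ T₁ (n + 2) ∧
      b + th (n + 1) b - C.d n e ∈ T₁ (n + 1) := by
  rw [Hmap_mk, Hinc_mk, Hinc_mk, H.mk_eq_mk, mem_Bc_succ] at hx
  obtain ⟨b, hb, hx⟩ := hx
  have hc2 : c ∈ R₂ (n + 2) := hR₃ _ hc.1
  have hcb : c + th (n + 2) c - C.d (n + 1) b ∈ T₂ (n + 2) := by
    have : c + th (n + 2) c - C.d (n + 1) b = th (n + 2) c - c - C.d (n + 1) b := by
      rw [sub_eq_add_neg (th (n + 2) c) c, neg_self h2, add_comm c]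
    rw [this]
    exact hx
  -- `b + th b` is a cocycle
  have hz : b + th (n + 1) b ∈ Zc R₂ T₂ (n + 1) := by
    refine ⟨Submodule.add_mem _ hb (h₂.mapS hb), ?_⟩
    change C.d (n + 1) (b + th (n + 1) b) ∈ T₂ (n + 2)
    have e1 := h₂.mapT hcb
    have e2 := h₂.comm hb
    have e3 := hth _ c hc2
    have key := Submodule.sub_mem _ e2 (Submodule.sub_mem _ (Submodule.add_mem _ hcb e1) e3)
    convert key using 1
    have z1 : c + c = 0 := two_zero h2 _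
    have z2 : th (n + 2) c + th (n + 2) c = 0 := two_zero h2 _
    simp only [map_sub, map_add]
    rw [← sub_eq_zero]
    have : C.d (n + 1) b + C.d (n + 1) (th (n + 1) b) -
        (C.d (n + 1) (th (n + 1) b) - th (n + 1 + 1) (C.d (n + 1) b) -
        (c + th (n + 2) c - C.d (n + 1) b +
          (th (n + 2) c + th (n + 2) (th (n + 2) c) - th (n + 2) (C.d (n + 1) b)) -
          (th (n + 2) (th (n + 2) c) - c))) =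
        (c + c) + (th (n + 2) c + th (n + 2) c) := by
      change C.d (n + 1) b + C.d (n + 1) (th (n + 1) b) -
        (C.d (n + 1) (th (n + 1) b) - th (n + 2) (C.d (n + 1) b) -
        (c + th (n + 2) c - C.d (n + 1) b +
          (th (n + 2) c + th (n + 2) (th (n + 2) c) - th (n + 2) (C.d (n + 1) b)) -
          (th (n + 2) (th (n + 2) c) - c))) = _
      abel
    rw [this, z1, z2, add_zero]
  have hzero := hodd (H.mk _ hz)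
  rw [Hinc_mk, H.mk_eq_zero, mem_Bc_succ] at hzero
  obtain ⟨e, he, hbe⟩ := hzero
  exact ⟨b, hR₂ _ hb, e, he, hT₂ _ hcb, hbe⟩

/-- **`d₂ = 0`**, abstract form: the class `x` on `X_t` is the pullback of a class of `Y₃ ⊇ Y₂ ⊇ Y₁`
by an equivariant chain map `q`, and the cohomology of `Y` in degree `n + 1` vanishes. -/
theorem d2_pull (h2 : (2 : k) = 0)
    {R₃ T₃ R₂ T₂ R₁ T₁ : Sub C'} (hR₃ : R₃ ≤ R₂) (hT₃ : T₃ ≤ T₂) (hR₂ : R₂ ≤ R₁) (hT₂ : T₂ ≤ T₁)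
    {thY : ∀ n, C'.K n →ₗ[k] C'.K n} (h₃ : IsMor R₃ T₃ R₃ T₃ thY) (h₂ : IsMor R₂ T₂ R₂ T₂ thY)
    (h₁ : IsMor R₁ T₁ R₁ T₁ thY)
    (hthY : ∀ n, ∀ x ∈ R₂ n, thY n (thY n x) - x ∈ T₂ n)
    {T S R : Sub C} (hTS : T ≤ S) (hSR : S ≤ R)
    {th : ∀ n, C.K n →ₗ[k] C.K n} (hRT : IsMor R T R T th) (hST : IsMor S T S T th)
    (hRS : IsMor R S R S th) (hth : ∀ n, ∀ x ∈ R n, th n (th n x) - x ∈ T n)
    {q : ∀ n, C'.K n →ₗ[k] C.K n} (hq : IsMor R₁ T₁ R T q)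
    (hqth : ∀ n, ∀ x ∈ R₁ n, q n (thY n x) - th n (q n x) ∈ T n) {n : ℕ}
    (hodd : ∀ y : H R₂ T₂ (n + 1), Hinc hR₂ hT₂ (n + 1) y = 0)
    {x : H R₃ T₃ (n + 2)} (hx : Hinc hR₃ hT₃ (n + 2) (Hmap h₃ (n + 2) x) = Hinc hR₃ hT₃ (n + 2) x)
    {s : H S T (n + 2)} (hs : Hinc hSR le_rfl (n + 2) s =
      Hmap hq (n + 2) (Hinc (hR₃.trans hR₂) (hT₃.trans hT₂) (n + 2) x))
    {om : H R S (n + 1)} (hom : Hdel R S T (n + 1) om = s + Hmap hST (n + 2) s) :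
    ∃ om' : H R T (n + 1), Hinc le_rfl hTS (n + 1) (om' + Hmap hRT (n + 1) om') =
      om + Hmap hRS (n + 1) om := by
  obtain ⟨c, hc, rfl⟩ := H.exists_mk x
  obtain ⟨b, hb, e, he, hcb, hbe⟩ := exists_b_e h2 hR₃ hT₃ hR₂ hT₂ h₃ h₂ hthY hodd hc hx
  have hc1 : c ∈ Zc R₁ T₁ (n + 2) := Zc_mono (hR₃.trans hR₂) (hT₃.trans hT₂) _ hc
  refine d2_cochain h2 hTS hSR hRT hST hRS hth (c := q (n + 2) c) (hq.mapZ hc1)
    (b := q (n + 1) b) (hq.mapS hb) ?_ (e := q n e) (hq.mapS he) ?_ hs hom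
  · have e1 := hq.mapT hcb
    have e2 := hq.comm hb
    have e3 := hqth _ c hc1.1
    have key := Submodule.sub_mem _ (Submodule.sub_mem _ e1 e2) e3
    convert key using 1
    simp only [map_sub, map_add]
    abel
  · have e1 := hq.mapT hbe
    have e2 := hq.comm he
    have e3 := hqth _ b hb
    have key := Submodule.sub_mem _ (Submodule.sub_mem _ e1 e2) e3
    convert key using 1
    simp only [map_sub, map_add]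
    abel

end Abs

section ASform

variable {E E' : Type} [PseudoMetricSpace E] [PseudoMetricSpace E'] {k : Type} [Field k]
  {I : Type} {a : I → E → E} {a' : I → E' → E'} {χ : I → k}

/-- The involution of the sets `A ⊆ X`. -/
theorem isMor_RS {X A : Set E} {θ : E → E} (h : IsMap a a X X θ) (hA : A ⊆ X)
    (hθA : MapsTo θ A A) :
    IsMor (Cc a χ X) (Zr a χ X A) (Cc a χ X) (Zr a χ X A) (pbK k θ) :=
  h.isMor_Cc hA hθA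

/-- `d₂ = 0` for Alexander-Spanier cochains.
`Xs ⊆ Xt` with involution `θ`; `Y₁ ⊆ Y₂ ⊆ Y₃` with involution `θ'`; `q : Xt → Y₁` equivariant; the
restriction `H^(n+1)(Y₂) → H^(n+1)(Y₁)` is zero; `x ∈ H^(n+2)(Y₃)` is `θ'`-invariant on `Y₂`.
For `s ∈ H^(n+2)(Xt, Xs)` with image `q^* x` and `om ∈ H^(n+1)(Xs)` with `δ om = s + θ s` there is
`om' ∈ H^(n+1)(Xt)` with `(om' + θ om')|Xs = om + θ om`. -/
theorem d2_AS (h2 : (2 : k) = 0) {Xt Xs : Set E} (hX : Xs ⊆ Xt) {θ : E → E}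
    (hθ : IsMap a a Xt Xt θ) (hθs : MapsTo θ Xs Xs) (hinv : ∀ x ∈ Xt, θ (θ x) = x)
    {Y₁ Y₂ Y₃ : Set E'} (hY₁ : Y₁ ⊆ Y₂) (hY₂ : Y₂ ⊆ Y₃) {θ' : E' → E'}
    (hθ₃ : IsMap a' a' Y₃ Y₃ θ') (hθ₂ : MapsTo θ' Y₂ Y₂) (hθ₁ : MapsTo θ' Y₁ Y₁)
    (hinv' : ∀ y ∈ Y₂, θ' (θ' y) = y)
    {q : E → E'} (hq : IsMap a a' Xt Y₁ q) (hqθ : ∀ x ∈ Xt, q (θ x) = θ' (q x)) {n : ℕ}
    (hodd : ∀ y : Ha a' χ Y₂ (n + 1), res hY₁ (n + 1) y = 0)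
    {x : Ha a' χ Y₃ (n + 2)}
    (hx : res hY₂ (n + 2) (pull χ hθ₃ (n + 2) x) = res hY₂ (n + 2) x)
    {s : Hr a χ Xt Xs (n + 2)}
    (hs : Hinc Zr_le_Cc le_rfl (n + 2) s =
      pull χ hq (n + 2) (res (hY₁.trans hY₂) (n + 2) x))
    {om : H (Cc a χ Xt) (Zr a χ Xt Xs) (n + 1)}
    (hom : Hdel (Cc a χ Xt) (Zr a χ Xt Xs) (Zr a χ Xt Xt) (n + 1) om =
      s + pullR χ hθ hX hθs (n + 2) s) :
    ∃ om' : Ha a χ Xt (n + 1), Hinc le_rfl (Zr_anti le_rfl hX) (n + 1)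
        (om' + pull χ hθ (n + 1) om') =
      om + Hmap (isMor_RS (χ := χ) hθ hX hθs) (n + 1) om := by
  have h₂' : IsMap a' a' Y₂ Y₂ θ' := hθ₃.mono hY₂ hθ₂
  have h₁' : IsMap a' a' Y₁ Y₁ θ' := hθ₃.mono (hY₁.trans hY₂) hθ₁
  refine d2_pull h2 (C' := ASK E' k) (Cc_anti hY₂) (Zr_anti hY₂ hY₂) (Cc_anti hY₁)
    (Zr_anti hY₁ hY₁) (h₃ := hθ₃.isMor_Cc le_rfl hθ₃.mapsX) (h₂ := h₂'.isMor_Cc le_rfl h₂'.mapsX)
    (h₁ := h₁'.isMor_Cc le_rfl h₁'.mapsX) ?_ (Zr_anti le_rfl hX) Zr_le_Cc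
    (hθ.isMor_Cc le_rfl hθ.mapsX) (hθ.isMor_Zr le_rfl hθ.mapsX hX hθs)
    (isMor_RS hθ hX hθs) ?_ (hq.isMor_Cc le_rfl hq.mapsX) ?_ hodd hx hs hom
  · intro m f hf
    refine ⟨((h₂'.pb_eqv (h₂'.pb_eqv hf)).sub hf), 1, one_pos, fun y hy => ?_⟩
    change f (θ' ∘ (θ' ∘ y)) - f y = 0
    rw [show θ' ∘ (θ' ∘ y) = y from funext fun i => hinv' _ (hy.1 i), sub_self]
  · intro m f hf
    refine ⟨((hθ.pb_eqv (hθ.pb_eqv hf)).sub hf), 1, one_pos, fun y hy => ?_⟩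
    change f (θ ∘ (θ ∘ y)) - f y = 0
    rw [show θ ∘ (θ ∘ y) = y from funext fun i => hinv _ (hy.1 i), sub_self]
  · intro m f hf
    refine ⟨(hq.pb_eqv (h₁'.pb_eqv hf)).sub (hθ.pb_eqv (hq.pb_eqv hf)), 1, one_pos,
      fun y hy => ?_⟩
    change f (θ' ∘ (q ∘ y)) - f (q ∘ (θ ∘ y)) = 0
    rw [show q ∘ (θ ∘ y) = θ' ∘ (q ∘ y) from funext fun i => hqθ _ (hy.1 i), sub_self]

end ASform

end Vale.Agent.P216.H269
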