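import Vale.Agent.P216.H269.KOfG

/-!
# The field `d2` of `T2Sys`, in the frame `H t n = HU k (XL M t) n`
-/

namespace Vale.Agent.P216.H269

open AS B64 Set GM L250 Q633 H828C BoundedContinuousFunction

theorem two_eq_zero {k : Type} [Field k] (hk : ∀ c : k, c = 0 ∨ c = 1) : (2 : k) = 0 := by
  rcases hk 2 with h | h
  · exact h
  · exfalso
    have : (1 : k) = 0 := by
      have h1 : (2 : k) = 1 + 1 := by norm_num
      rw [h1] at h
      exact add_eq_left.1 h
    exact one_ne_zero this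

/-- From a contract `KOut` and `XOut2`. -/
theorem d2_of_kOut {M : Type} [MetricSpace M] {B : ℝ} {k : Type} [Field k]
    (hk : ∀ c : k, c = 0 ∨ c = 1) (hB : 0 < B) (X : XOut2 M B k)
    (O : KOut k (XL M) (L250.rev : LM M → LM M) X.g)
    {n : ℕ} (hn : n % 2 = 0) {s t : ℝ} (hst : s ≤ t)
    (σ : Hr (a0 (LM M)) (c0 k) (XL M t) (XL M s) (n + 2)) {lam : k}
    (hσ : jU (c0 k) (XL M t) (XL M s) (n + 2) σ = lam • X.g (n + 2) t)
    (om : HU k (XL M s) (n + 1))
    (hom : δU (c0 k) (XL_mono hst) (KOut.inv_a0 _) (n + 1) om =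
      σ + pullR (c0 k) (umap_rev t) (XL_mono hst) (umap_rev s).mapsX (n + 2) σ) :
    ∃ om' : HU k (XL M t) (n + 1),
      hres k (XL_mono hst) (n + 1) (om' + hpull k (umap_rev t) (n + 1) om') =
        om + hpull k (umap_rev s) (n + 1) om :=
  O.d2 (two_eq_zero hk) (fun _ _ h => XL_mono h) umap_rev (fun _ g _ => L250.rev_rev g)
    (fun n s t h => X.res_g n s t h) (fun n t => rev_g X hB hk n t) hn hst hσ hom

/-- **The field `d2`** for a manifold with a `K`-Lipschitz map to `S³` satisfying [GOM]. -/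
theorem d2_field {M : Type} [MetricSpace M] [CompactSpace M] {f : C(M, S3)} {K : ℝ} (hK : 0 < K)
    (hf : ∀ x y, dist (f x) (f y) ≤ K * dist x y) {B : ℝ} {k : Type} [Field k]
    (hk : ∀ c : k, c = 0 ∨ c = 1) (hB : 0 < B) (X : XOut2 M B k) {x₀ : M} {B' : ℝ}
    {O : OmegaOut M 2 x₀ B' k} (G1 : G1P k) (G2 : G2P hK.le hf O) (G3 : G3P hK.le hf x₀ k)
    {n : ℕ} (hn : n % 2 = 0) {s t : ℝ} (hst : s ≤ t)
    (σ : Hr (a0 (LM M)) (c0 k) (XL M t) (XL M s) (n + 2)) {lam : k}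
    (hσ : jU (c0 k) (XL M t) (XL M s) (n + 2) σ = lam • X.g (n + 2) t)
    (om : HU k (XL M s) (n + 1))
    (hom : δU (c0 k) (XL_mono hst) (KOut.inv_a0 _) (n + 1) om =
      σ + pullR (c0 k) (umap_rev t) (XL_mono hst) (umap_rev s).mapsX (n + 2) σ) :
    ∃ om' : HU k (XL M t) (n + 1),
      hres k (XL_mono hst) (n + 1) (om' + hpull k (umap_rev t) (n + 1) om') =
        om + hpull k (umap_rev s) (n + 1) om :=
  d2_of_kOut hk hB X (kOut hK hf hB.le G1 G2 G3 X) hn hst σ hσ om hom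

end Vale.Agent.P216.H269
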