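import Vale.Agent.P216.H269.D2Sheet
import Vale.Agent.P216.DV706.PInst
import Vale.Agent.P216.H779C.Gom1
import Vale.Agent.P216.H311.Gom2
import Vale.Agent.P216.H126L.Lip
import Vale.Agent.P216.H126L.Grp

/-!
# Block [D2] of `S376.Blocks`
-/

namespace Vale.Agent.P216.H269

open AS B64 Set GM L250 Q633 H828C BoundedContinuousFunction B609 H288 H494 DV706

variable {M : Type} [MetricSpace M] [CompactSpace M] (G : GeoList M)
  (hD : DescentStmt (Hol.triv : Hol M) G) {k : Type} [Field k] {p : ℕ} (hp : 0 < p)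

/-- The identification of the tower of the `S.V k t n` with the tower of the sublevels. -/
noncomputable def hIso : HIso M (RotS.TH (S0 G hD) k) fun t n => (S0 G hD).absTh k p hp t n where
  φ t n := phi G hD k t n
  nat n s t h x := phi_res G hD h n x
  rev t n x := phi_rH G hD hp t n x

theorem exists_lam {B : ℝ} (hB : 0 < B) (X : XOut2 M B k) (n : ℕ) (t : ℝ)
    (y : (S0 G hD).V k t n) (hy : y ∈ LinearMap.range ((RotS.TH (S0 G hD) k n).ev t)) :
    ∃ lam : k, phi G hD k t n y = lam • X.g n t := by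
  obtain ⟨x, rfl⟩ := hy
  obtain ⟨c, rfl⟩ := (hIso G hD (k := k) (p := 4) (by norm_num)).exists_smul X hB n x
  refine ⟨c, ?_⟩
  rw [map_smul, map_smul]
  exact congrArg (c • ·) ((hIso G hD (k := k) (p := 4) (by norm_num)).φ_gh X t n)

/-- **Block [D2]**. -/
theorem d2_V {f : C(M, S3)} {K : ℝ} (hK : 0 < K)
    (hf : ∀ x y, dist (f x) (f y) ≤ K * dist x y) {B : ℝ}
    (hk : ∀ c : k, c = 0 ∨ c = 1) (hB : 0 < B) (X : XOut2 M B k) {x₀ : M} {B' : ℝ}
    {O : OmegaOut M 2 x₀ B' k} (G1 : G1P k) (G2 : G2P hK.le hf O) (G3 : G3P hK.le hf x₀ k)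
    (i : ℕ) (s t : ℝ) (h : s ≤ t) (om : ((S0 G hD).P k p hp s).HH (2 * i + 3))
    (g : ((S0 G hD).Q k p hp h).HH (2 * i + 3 + 1))
    (hg : (S0 G hD).relJ k p hp h (2 * i + 3 + 1) g ∈
      LinearMap.range ((RotS.TH (S0 G hD) k (2 * i + 3 + 1)).ev t))
    (hom : (S0 G hD).relDel k p hp h (2 * i + 3) om =
      g + (S0 G hD).relTh k p hp h (2 * i + 3 + 1) g) :
    ∃ om' : ((S0 G hD).P k p hp t).HH (2 * i + 3),
      (S0 G hD).relRes k p hp h (2 * i + 3)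
          (om' + (S0 G hD).absTh k p hp t (2 * i + 3) om') =
        om + (S0 G hD).absTh k p hp s (2 * i + 3) om := by
  obtain ⟨lam, hlam⟩ := exists_lam G hD hB X _ t _ hg
  exact d2_sheet_of G hD hp X (n := 2 * i + 2) h
    (fun σ lam hσ om hom => d2_field hK hf hk hB X G1 G2 G3 (by omega) h σ hσ om hom)
    om g hlam hom

section GOM

variable {M : Type} [MetricSpace M] [CompactSpace M] {ρ : ℝ}

theorem isometry_sphG3 : Isometry H126L.sphG3 := by
  refine Isometry.of_dist_eq fun x y => ?_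
  change dist ((H126L.sphG3 x).1) ((H126L.sphG3 y).1) = dist x.1 y.1
  exact Quaternion.linearIsometryEquivTuple.symm.dist_map _ _

/-- Lipschitz approximation of maps to the unit quaternions. -/
theorem exists_lip_S3 (e : C(M, S3)) {ε : ℝ} (hε : 0 < ε) : ∃ (f : C(M, S3)) (K : ℝ), 0 < K ∧
    (∀ x y, dist (f x) (f y) ≤ K * dist x y) ∧ ∀ x, dist (f x) (e x) ≤ ε := by
  obtain ⟨g, K, hK, hg⟩ := H126L.exists_lip
    (⟨fun x => H126L.sphG3.symm (e x), H126L.sphG3.symm.continuous.comp e.continuous⟩ :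
      C(M, Metric.sphere (0 : EuclideanSpace ℝ (Fin 4)) 1)) hε
  refine ⟨⟨fun x => H126L.sphG3 (g x), H126L.sphG3.continuous.comp g.continuous⟩, K + 1,
    by positivity, fun x y => ?_, fun x => ?_⟩
  · change dist (H126L.sphG3 (g x)) (H126L.sphG3 (g y)) ≤ _
    rw [isometry_sphG3.dist_eq]
    refine (hK.dist_le_mul x y).trans (mul_le_mul_of_nonneg_right ?_ dist_nonneg)
    linarith
  · have h1 := hg x
    rw [← isometry_sphG3.dist_eq] at h1
    change dist (H126L.sphG3 (g x)) (e x) ≤ ε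
    have h2 : H126L.sphG3 (H126L.sphG3.symm (e x)) = e x := H126L.sphG3.apply_symm_apply _
    rw [← h2]
    exact h1

/-- **[GOM]** complete: a Lipschitz map with G1, G2, G3. -/
theorem exists_gom (hρ : 0 < ρ) (hU : LS.UniqSeg M ρ) (e : M ≃ₜ S3) {x₀ : M} (he : e x₀ = 1) :
    ∃ (f : C(M, S3)) (K : ℝ) (hK : 0 < K) (hf : ∀ x y, dist (f x) (f y) ≤ K * dist x y),
      ∀ (k : Type) [Field k] {B : ℝ} (_ : 0 ≤ B) (O : OmegaOut M 2 x₀ B k),
        G1P k ∧ G2P hK.le hf O ∧ G3P hK.le hf x₀ k := by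
  obtain ⟨ε₀, hε₀, g0⟩ := H779C.gom0 hρ hU e he
  obtain ⟨ε₁, hε₁, g1⟩ := H779C.gom1 hρ hU e he
  obtain ⟨ε₂, hε₂, g2⟩ := H311.gom2 hρ hU e he
  obtain ⟨f, K, hK, hf, hc⟩ := exists_lip_S3 ⟨e, e.continuous⟩
    (lt_min (lt_min hε₀ hε₁) hε₂)
  have c0 : ∀ x, dist (f x) (e x) ≤ ε₀ := fun x =>
    (hc x).trans ((min_le_left _ _).trans (min_le_left _ _))
  have c1 : ∀ x, dist (f x) (e x) ≤ ε₁ := fun x =>
    (hc x).trans ((min_le_left _ _).trans (min_le_right _ _))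
  have c2 : ∀ x, dist (f x) (e x) ≤ ε₂ := fun x => (hc x).trans (min_le_right _ _)
  refine ⟨f, K, hK, hf, fun k _ B hB O => ⟨?_, ?_, ?_⟩⟩
  · intro s
    obtain ⟨s', h1⟩ := g1 f K hK.le hf c1 k hB O s
    obtain ⟨hs, h2⟩ := h1 s' le_rfl
    exact ⟨s', hs, fun q hq z => h2 q (by omega) z⟩
  · intro j s hs hjs hg
    exact g2 f K hK.le hf c2 k hB O j s hs hjs hg
  · intro s
    obtain ⟨T, s', hT, h1⟩ := g0 f K hK.le hf c0 s
    obtain ⟨hs, hKT, h2⟩ := h1 s' le_rfl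
    refine ⟨s', hs, T, hT, hKT, fun hg q z hz => ?_⟩
    obtain ⟨α, hα⟩ := h2 k q
    rw [← hα z]
    exact (congrArg α hz).trans (map_zero α)

end GOM

/-- **Block [D2]**, from a homeomorphism with `S³` (G0, G1: 779, G2: 311, Lipschitz map: 126). -/
theorem d2_S3 {ρ : ℝ} (hρ : 0 < ρ) (hU : LS.UniqSeg M ρ) (e : M ≃ₜ S3) {x₀ : M} (he : e x₀ = 1)
    {B : ℝ} (hk : ∀ c : k, c = 0 ∨ c = 1) (hB : 0 < B) (X : XOut2 M B k) {B' : ℝ} (hB' : 0 ≤ B')
    (O : OmegaOut M 2 x₀ B' k)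
    (i : ℕ) (s t : ℝ) (h : s ≤ t) (om : ((S0 G hD).P k p hp s).HH (2 * i + 3))
    (g : ((S0 G hD).Q k p hp h).HH (2 * i + 3 + 1))
    (hg : (S0 G hD).relJ k p hp h (2 * i + 3 + 1) g ∈
      LinearMap.range ((RotS.TH (S0 G hD) k (2 * i + 3 + 1)).ev t))
    (hom : (S0 G hD).relDel k p hp h (2 * i + 3) om =
      g + (S0 G hD).relTh k p hp h (2 * i + 3 + 1) g) :
    ∃ om' : ((S0 G hD).P k p hp t).HH (2 * i + 3),
      (S0 G hD).relRes k p hp h (2 * i + 3)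
          (om' + (S0 G hD).absTh k p hp t (2 * i + 3) om') =
        om + (S0 G hD).absTh k p hp s (2 * i + 3) om := by
  obtain ⟨f, K, hK, hf, H⟩ := exists_gom hρ hU e he
  obtain ⟨G1, G2, G3⟩ := H k hB' O
  exact d2_V G hD hp hK hf hk hB X G1 G2 G3 i s t h om g hg hom

end Vale.Agent.P216.H269
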