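import Vale.Agent.P216.S376.Inst
import Vale.Agent.P216.H269.D2V

/-! # `S376.D2Goal` -/

namespace Vale.Agent.P216.H269

/-- **[D2]** for `S376.tGoal_of`. -/
theorem d2Goal : S376.D2Goal := by
  intro M _ _ G hD B hB X x₀ B' O f K hK hf G1 G2 G3 hp i s t h ω g hg hω
  exact d2_V G hD hp hK hf H828C.zmod_two hB X G1 G2 G3 i s t h ω g hg hω

end Vale.Agent.P216.H269
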