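import Vale.Agent.P216.H269.D2Field
import Vale.Agent.P216.B609.Sheet
import Vale.Agent.P216.H651.RelH

/-!
# The field `d2` in the frame of the geometric system `mkGSys Hol.triv G hD`
-/

namespace Vale.Agent.P216.H269

open AS B64 Set GM L250 Q633 H828C BoundedContinuousFunction B609 H288 H494

section Rel

variable {M : Type} [MetricSpace M] {k : Type} [Field k]

/-- The section on relative cochains. -/
theorem isMor_secR {Y A : Set (LM M)} (hA : A ⊆ Y) :
    IsMor (Zr (fun _ : Unit => deckC) (fun _ : Unit => (-1 : k)) (two Y) (two A)) (ZT k Y)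
      (Zr (a0 (LM M)) (c0 k) Y A) (ZU k Y) (pbK k (secL (M := M))) :=
  IsMor.of_comm
    (fun {n f} hf => by
      obtain ⟨-, ε, hε, h⟩ := hf
      refine ⟨eqv0 _, ε, hε, fun x hx => h _ ⟨fun i => secL_mem (hx.1 i), fun i j => ?_⟩⟩
      change dist (secL (x i)) (secL (x j)) < ε
      rw [dist_secL]
      exact hx.2 i j)
    (fun {n f} hf => by
      obtain ⟨-, ε, hε, h⟩ := hf
      refine ⟨eqv0 _, ε, hε, fun x hx => h _ ⟨fun i => secL_mem (hx.1 i), fun i j => ?_⟩⟩
      change dist (secL (x i)) (secL (x j)) < ε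
      rw [dist_secL]
      exact hx.2 i j)
    (pbK_d _)

/-- The section on cochains modulo those vanishing on a subset. -/
theorem isMor_secW {Y A : Set (LM M)} (hA : A ⊆ Y) :
    IsMor (CT k Y) (Zr (fun _ : Unit => deckC) (fun _ : Unit => (-1 : k)) (two Y) (two A))
      (CU k Y) (Zr (a0 (LM M)) (c0 k) Y A) (pbK k (secL (M := M))) :=
  IsMor.of_comm (fun _ => eqv0 _)
    (fun {n f} hf => by
      obtain ⟨-, ε, hε, h⟩ := hf
      refine ⟨eqv0 _, ε, hε, fun x hx => h _ ⟨fun i => secL_mem (hx.1 i), fun i j => ?_⟩⟩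
      change dist (secL (x i)) (secL (x j)) < ε
      rw [dist_secL]
      exact hx.2 i j)
    (pbK_d _)

end Rel

variable {M : Type} [MetricSpace M] [CompactSpace M] (G : GeoList M)
  (hD : DescentStmt (Hol.triv : Hol M) G) {k : Type} [Field k] {p : ℕ} (hp : 0 < p)

/-- `phi` on the groups `HH` -/
noncomputable def phiH (t : ℝ) (n : ℕ) :
    ((mkGSys Hol.triv G hD).P k p hp t).HH n ≃ₗ[k] HU k (XL M t) n := phi G hD k t n

/-- relative version of `phi` -/
noncomputable def phiR {s t : ℝ} (h : s ≤ t) (n : ℕ) :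
    ((mkGSys Hol.triv G hD).Q k p hp h).HH n →ₗ[k]
      Hr (a0 (LM M)) (c0 k) (XL M t) (XL M s) n :=
  Hmap (isMor_secR (k := k) (XL_mono h)) n

theorem jU_phiR {s t : ℝ} (h : s ≤ t) (n : ℕ)
    (x : ((mkGSys Hol.triv G hD).Q k p hp h).HH n) :
    jU (c0 k) (XL M t) (XL M s) n (phiR G hD hp h n x) =
      phi G hD k t n ((mkGSys Hol.triv G hD).relJ k p hp h n x) := by
  obtain ⟨c, hc, rfl⟩ := H.exists_mk x
  rfl

theorem phiR_relDel {s t : ℝ} (h : s ≤ t) (n : ℕ) (x : (mkGSys Hol.triv G hD).V k s n) :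
    phiR G hD hp h (n + 1) ((mkGSys Hol.triv G hD).relDel k p hp h n x) =
      δU (c0 k) (XL_mono h) (KOut.inv_a0 _) n (phi G hD k s n x) := by
  obtain ⟨z, rfl⟩ := ((mkGSys Hol.triv G hD).eqW k p hp h n).surjective x
  rw [GSys.relDel_eqW]
  obtain ⟨c, hc, rfl⟩ := H.exists_mk z
  have hc' : pbK k (secL (M := M)) n c ∈ Zc (CU k (XL M t))
      (Zr (a0 (LM M)) (c0 k) (XL M t) (XL M s)) n := (isMor_secW (XL_mono h)).mapZ hc
  have e : phi G hD k s n ((mkGSys Hol.triv G hD).eqW k p hp h n (H.mk c hc)) =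
      eW (XL_mono h) (KOut.inv_a0 _) n (H.mk _ hc') := rfl
  rw [e]
  change _ = Hdel _ _ _ n ((eW (XL_mono h) (KOut.inv_a0 _) n).symm
    (eW (XL_mono h) (KOut.inv_a0 _) n (H.mk _ hc')))
  rw [LinearEquiv.symm_apply_apply, Hdel_mk]
  refine H.mk_eq_mk.2 ?_
  rw [pbK_d]
  have e2 : ∀ z : (ASK (LM M) k).K (n + 1),
      z - z ∈ Bc (Zr (a0 (LM M)) (c0 k) (XL M t) (XL M s)) (ZU k (XL M t)) (n + 1) := fun z => by
    rw [sub_self]
    exact Submodule.zero_mem _
  exact e2 _

theorem phiR_relTh {s t : ℝ} (h : s ≤ t) (n : ℕ)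
    (x : ((mkGSys Hol.triv G hD).Q k p hp h).HH n) :
    phiR G hD hp h n ((mkGSys Hol.triv G hD).relTh k p hp h n x) =
      pullR (c0 k) (umap_rev t) (XL_mono h) (umap_rev s).mapsX n (phiR G hD hp h n x) := by
  obtain ⟨c, hc, rfl⟩ := H.exists_mk x
  change H.mk _ _ = H.mk _ _
  congr 1
  funext y
  change c (revC ∘ (secL ∘ y)) = c (secL ∘ (L250.rev ∘ y))
  congr 1
  funext i
  exact revC_secL _

theorem phi_absTh (t : ℝ) (n : ℕ) (x : (mkGSys Hol.triv G hD).V k t n) :
    phi G hD k t n ((mkGSys Hol.triv G hD).absTh k p hp t n x) =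
      hpull k (umap_rev t) n (phi G hD k t n x) := phi_rH G hD hp t n x

theorem phiH_absTh (t : ℝ) (n : ℕ) (x : ((mkGSys Hol.triv G hD).P k p hp t).HH n) :
    phiH G hD hp t n ((mkGSys Hol.triv G hD).absTh k p hp t n x) =
      hpull k (umap_rev t) n (phiH G hD hp t n x) := phi_rH G hD hp t n x

theorem phiH_relRes {s t : ℝ} (h : s ≤ t) (n : ℕ)
    (x : ((mkGSys Hol.triv G hD).P k p hp t).HH n) :
    phiH G hD hp s n ((mkGSys Hol.triv G hD).relRes k p hp h n x) =
      hres k (XL_mono h) n (phiH G hD hp t n x) := phi_res G hD h n x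

/-- **The field `d2`, frame `S.V`**, from the statement in the frame `HU`. -/
theorem d2_sheet_of {B : ℝ} (X : XOut2 M B k) {n : ℕ} {s t : ℝ} (h : s ≤ t)
    (hU : ∀ (σ : Hr (a0 (LM M)) (c0 k) (XL M t) (XL M s) (n + 2)) (lam : k),
      jU (c0 k) (XL M t) (XL M s) (n + 2) σ = lam • X.g (n + 2) t →
      ∀ om : HU k (XL M s) (n + 1),
        δU (c0 k) (XL_mono h) (KOut.inv_a0 _) (n + 1) om =
          σ + pullR (c0 k) (umap_rev t) (XL_mono h) (umap_rev s).mapsX (n + 2) σ →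
        ∃ om' : HU k (XL M t) (n + 1),
          hres k (XL_mono h) (n + 1) (om' + hpull k (umap_rev t) (n + 1) om') =
            om + hpull k (umap_rev s) (n + 1) om)
    (om : ((mkGSys Hol.triv G hD).P k p hp s).HH (n + 1))
    (g : ((mkGSys Hol.triv G hD).Q k p hp h).HH (n + 2)) {lam : k}
    (hg : phiH G hD hp t (n + 2) ((mkGSys Hol.triv G hD).relJ k p hp h (n + 2) g) =
      lam • X.g (n + 2) t)
    (hom : (mkGSys Hol.triv G hD).relDel k p hp h (n + 1) om =
      g + (mkGSys Hol.triv G hD).relTh k p hp h (n + 2) g) :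
    ∃ om' : ((mkGSys Hol.triv G hD).P k p hp t).HH (n + 1),
      (mkGSys Hol.triv G hD).relRes k p hp h (n + 1)
          (om' + (mkGSys Hol.triv G hD).absTh k p hp t (n + 1) om') =
        om + (mkGSys Hol.triv G hD).absTh k p hp s (n + 1) om := by
  obtain ⟨w, hw⟩ := hU (phiR G hD hp h (n + 2) g) lam ((jU_phiR G hD hp h (n + 2) g).trans hg)
    (phiH G hD hp s (n + 1) om) (by
      refine (phiR_relDel G hD hp h (n + 1) om).symm.trans ?_
      rw [hom, map_add, phiR_relTh])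
  refine ⟨(phiH G hD hp t (n + 1)).symm w, (phiH G hD hp s (n + 1)).injective ?_⟩
  rw [phiH_relRes, map_add, phiH_absTh, LinearEquiv.apply_symm_apply, hw, map_add, phiH_absTh]

end Vale.Agent.P216.H269
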