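import Vale.Agent.P216.H269.D2V
import Vale.Agent.P216.Q633.LiftG

/-!
# [GOM] in the form of `Q633.Gom`, and the field `lift` at odd `d`
-/

namespace Vale.Agent.P216.H269

open AS B64 Set GM L250 Q633 H828C BoundedContinuousFunction B609 H288 H494 DV706

variable {M : Type} [MetricSpace M] [CompactSpace M]

theorem gom_of {f : C(M, S3)} {K : ℝ} (hK : 0 < K)
    (hf : ∀ x y, dist (f x) (f y) ≤ K * dist x y) {k : Type} [Field k] {B : ℝ} (hB : 0 < B)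
    (X : XOut2 M B k) {x₀ : M} {B' : ℝ} {O : OmegaOut M 2 x₀ B' k} (G1 : G1P k)
    (G2 : G2P hK.le hf O) : Gom hK.le hf k X.g where
  G1 n hn s := g1r G1 n hn s
  G2 n hn t s := by
    obtain ⟨s', h1, h2, c, hc⟩ := g2r hK hf hB.le G2 X n hn t s
    exact ⟨s', h1, h2, c, hc _⟩

/-- **[GOM]**, one Lipschitz map for everything. -/
theorem exists_gom' {ρ : ℝ} (hρ : 0 < ρ) (hU : LS.UniqSeg M ρ) (e : M ≃ₜ S3) {x₀ : M}
    (he : e x₀ = 1) :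
    ∃ (f : C(M, S3)) (K : ℝ) (hK : 0 < K) (hf : ∀ x y, dist (f x) (f y) ≤ K * dist x y),
      ∀ (k : Type) [Field k] {B' : ℝ} (_ : 0 ≤ B') (O : OmegaOut M 2 x₀ B' k) {B : ℝ}
        (_ : 0 < B) (X : XOut2 M B k),
        G1P k ∧ G2P hK.le hf O ∧ G3P hK.le hf x₀ k ∧ Gom hK.le hf k X.g := by
  obtain ⟨f, K, hK, hf, H⟩ := exists_gom hρ hU e he
  refine ⟨f, K, hK, hf, fun k _ B' hB' O B hB X => ?_⟩
  obtain ⟨G1, G2, G3⟩ := H k hB' O
  exact ⟨G1, G2, G3, gom_of hK hf hB X G1 G2⟩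

/-- The Gysin map `d` kills the global classes in even degrees, from a homeomorphism with `S³`. -/
theorem d_ev_eq_zero_S3 (G : GeoList M) (hD : DescentStmt (Hol.triv : Hol M) G) {k : Type}
    [Field k] (h2 : (2 : k) = 0) {ρ : ℝ} (hρ : 0 < ρ) (hU : LS.UniqSeg M ρ) (e : M ≃ₜ S3)
    {x₀ : M} (he : e x₀ = 1) (R : RotS (mkGSys Hol.triv G hD)) {B : ℝ} (hB : 0 < B)
    (X : XOut2 M B k) {B' : ℝ} (hB' : 0 ≤ B') (O : OmegaOut M 2 x₀ B' k) {n : ℕ}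
    (hn : n % 2 = 1) (x : (RotS.TH (mkGSys Hol.triv G hD) k (n + 1)).Lim) (t : ℝ) :
    (R.gysM k (S4.ord_four h2) t).d n ((RotS.TH (mkGSys Hol.triv G hD) k (n + 1)).ev t x) = 0 := by
  obtain ⟨f, K, hK, hf, H⟩ := exists_gom' hρ hU e he
  obtain ⟨-, -, -, hG⟩ := H k hB' O hB X
  exact Q633.d_ev_eq_zero G hD h2 hK.le hf R hB X hG hn x t

end Vale.Agent.P216.H269
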