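import Vale.Agent.P216.H269.D2AS

/-!
# The exact sequence of a pair in `Ha` / `Hr` form, with a reversal, and `d₂ = 0` in this form
-/

namespace Vale.Agent.P216.H269

open AS Set

variable {E E' : Type} [PseudoMetricSpace E] [PseudoMetricSpace E'] {k : Type} [Field k]
  {I : Type} {a : I → E → E} {a' : I → E' → E'} {χ : I → k} {X A : Set E}

/-- The cohomology of `A`, computed by the cochains of `X`. -/
noncomputable def eW (hA : A ⊆ X) (hi : Inv a A) (n : ℕ) :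
    H (Cc a χ X) (Zr a χ X A) n ≃ₗ[k] Ha a χ A n :=
  LinearEquiv.ofBijective _ (world_bijective' (a := a) (χ := χ) hA (le_refl A) hi n)

/-- `H^n(X, A) → H^n(X)`. -/
def jU (χ : I → k) (X A : Set E) (n : ℕ) : Hr a χ X A n →ₗ[k] Ha a χ X n :=
  Hinc Zr_le_Cc le_rfl n

/-- `H^n(A) → H^(n+1)(X, A)`. -/
noncomputable def δU (χ : I → k) (hA : A ⊆ X) (hi : Inv a A) (n : ℕ) :
    Ha a χ A n →ₗ[k] Hr a χ X A (n + 1) :=
  Hdel (Cc a χ X) (Zr a χ X A) (Zr a χ X X) n ∘ₗ (eW hA hi n).symm.toLinearMap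

theorem eW_incl (hA : A ⊆ X) (hi : Inv a A) (n : ℕ) (x : Ha a χ X n) :
    eW hA hi n (Hinc le_rfl (Zr_anti le_rfl hA) n x) = res hA n x := by
  obtain ⟨c, hc, rfl⟩ := H.exists_mk x
  rfl

theorem eW_symm_res (hA : A ⊆ X) (hi : Inv a A) (n : ℕ) (x : Ha a χ X n) :
    (eW hA hi n).symm (res hA n x) = Hinc le_rfl (Zr_anti le_rfl hA) n x := by
  rw [LinearEquiv.symm_apply_eq, eW_incl]

theorem injU : Function.Injective (jU χ X A 0 : Hr a χ X A 0 →ₗ[k] Ha a χ X 0) :=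
  inc_zero_injective Zr_le_Cc

theorem exU1 (hA : A ⊆ X) (hi : Inv a A) (n : ℕ) :
    Function.Exact (jU χ X A n : Hr a χ X A n →ₗ[k] Ha a χ X n) (res hA n) := by
  intro x
  rw [← eW_incl hA hi, LinearEquiv.map_eq_zero_iff]
  exact exact_mid (Zr_anti (le_refl X) hA) Zr_le_Cc x

theorem exU2 (hA : A ⊆ X) (hi : Inv a A) (n : ℕ) :
    Function.Exact (res hA n : Ha a χ X n →ₗ[k] Ha a χ A n) (δU χ hA hi n) := by
  intro y
  change Hdel _ _ _ n ((eW hA hi n).symm y) = 0 ↔ _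
  rw [exact_del (Zr_anti (le_refl X) hA) Zr_le_Cc]
  constructor
  · rintro ⟨x, hx⟩
    exact ⟨x, by rw [← eW_incl hA hi, hx, LinearEquiv.apply_symm_apply]⟩
  · rintro ⟨x, rfl⟩
    exact ⟨x, (eW_symm_res hA hi n x).symm⟩

theorem exU3 (hA : A ⊆ X) (hi : Inv a A) (n : ℕ) :
    Function.Exact (δU χ hA hi n) (jU χ X A (n + 1) : Hr a χ X A (n + 1) →ₗ[k] _) := by
  intro y
  refine (exact_inc (Zr_anti (le_refl X) hA) Zr_le_Cc y).trans ?_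
  constructor
  · rintro ⟨x, hx⟩
    refine ⟨eW hA hi n x, ?_⟩
    change Hdel _ _ _ n ((eW hA hi n).symm (eW hA hi n x)) = y
    rw [LinearEquiv.symm_apply_apply, hx]
  · rintro ⟨x, hx⟩
    exact ⟨(eW hA hi n).symm x, hx⟩

/-! ### The reversal -/

variable {θ : E → E}

theorem θ_jU (hθ : IsMap a a X X θ) (hA : A ⊆ X) (hθA : MapsTo θ A A) (n : ℕ)
    (x : Hr a χ X A n) :
    pull χ hθ n (jU χ X A n x) = jU χ X A n (pullR χ hθ hA hθA n x) := by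
  obtain ⟨c, hc, rfl⟩ := H.exists_mk x
  rfl

theorem eW_θ (hθ : IsMap a a X X θ) (hA : A ⊆ X) (hi : Inv a A) (hθA : MapsTo θ A A) (n : ℕ)
    (x : H (Cc a χ X) (Zr a χ X A) n) :
    eW hA hi n (Hmap (isMor_RS hθ hA hθA) n x) = pull χ (hθ.mono hA hθA) n (eW hA hi n x) := by
  obtain ⟨c, hc, rfl⟩ := H.exists_mk x
  rfl

theorem θ_δU (hθ : IsMap a a X X θ) (hA : A ⊆ X) (hi : Inv a A) (hθA : MapsTo θ A A) (n : ℕ)
    (x : Ha a χ A n) :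
    pullR χ hθ hA hθA (n + 1) (δU χ hA hi n x) =
      δU χ hA hi n (pull χ (hθ.mono hA hθA) n x) := by
  have e : (eW hA hi n).symm (pull χ (hθ.mono hA hθA) n x) =
      Hmap (isMor_RS hθ hA hθA) n ((eW hA hi n).symm x) := by
    rw [LinearEquiv.symm_apply_eq, eW_θ hθ hA hi hθA, LinearEquiv.apply_symm_apply]
  change _ = Hdel _ _ _ n ((eW hA hi n).symm (pull χ (hθ.mono hA hθA) n x))
  rw [e]
  exact (Hdel_natural (hθ.isMor_Cc le_rfl hθ.mapsX) (isMor_RS hθ hA hθA)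
    (hθ.isMor_Zr le_rfl hθ.mapsX hA hθA) _).symm

theorem pull_pull_self (hθ : IsMap a a X X θ) (hinv : ∀ x ∈ X, θ (θ x) = x) (n : ℕ)
    (x : Ha a χ X n) : pull χ hθ n (pull χ hθ n x) = x := by
  rw [← pull_comp, pull_eq_res (le_refl X) _ fun x hx => hinv x hx, res_refl]

theorem pullR_pullR_self (hθ : IsMap a a X X θ) (hA : A ⊆ X) (hθA : MapsTo θ A A)
    (hinv : ∀ x ∈ X, θ (θ x) = x) (n : ℕ) (x : Hr a χ X A n) :
    pullR χ hθ hA hθA n (pullR χ hθ hA hθA n x) = x := by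
  rw [← pullR_comp, pullR_eq_resR (le_refl X) (le_refl A) hA _ _ fun x hx => hinv x hx]
  exact Hinc_refl _ _ _

/-! ### `d₂ = 0` -/

/-- `d₂ = 0` for the pair `(X, A)` (see `d2_AS`): `q : X → Y₁ ⊆ Y₂ ⊆ Y₃` commutes with the
reversals, the cohomology of `Y` in degree `n + 1` dies from `Y₂` to `Y₁`, the class `x` of `Y₃` is
reversal invariant on `Y₂`. -/
theorem d2_U (h2 : (2 : k) = 0) (hA : A ⊆ X) (hi : Inv a A)
    (hθ : IsMap a a X X θ) (hθA : MapsTo θ A A) (hinv : ∀ x ∈ X, θ (θ x) = x)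
    {Y₁ Y₂ Y₃ : Set E'} (hY₁ : Y₁ ⊆ Y₂) (hY₂ : Y₂ ⊆ Y₃) {θ' : E' → E'}
    (hθ₃ : IsMap a' a' Y₃ Y₃ θ') (hθ₂ : MapsTo θ' Y₂ Y₂) (hθ₁ : MapsTo θ' Y₁ Y₁)
    (hinv' : ∀ y ∈ Y₂, θ' (θ' y) = y)
    {q : E → E'} (hq : IsMap a a' X Y₁ q) (hqθ : ∀ x ∈ X, q (θ x) = θ' (q x)) {n : ℕ}
    (hodd : ∀ y : Ha a' χ Y₂ (n + 1), res hY₁ (n + 1) y = 0)
    {x : Ha a' χ Y₃ (n + 2)}
    (hx : res hY₂ (n + 2) (pull χ hθ₃ (n + 2) x) = res hY₂ (n + 2) x)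
    {s : Hr a χ X A (n + 2)}
    (hs : jU χ X A (n + 2) s = pull χ hq (n + 2) (res (hY₁.trans hY₂) (n + 2) x))
    {om : Ha a χ A (n + 1)}
    (hom : δU χ hA hi (n + 1) om = s + pullR χ hθ hA hθA (n + 2) s) :
    ∃ om' : Ha a χ X (n + 1), res hA (n + 1) (om' + pull χ hθ (n + 1) om') =
      om + pull χ (hθ.mono hA hθA) (n + 1) om := by
  obtain ⟨om', h⟩ := d2_AS h2 hA hθ hθA hinv hY₁ hY₂ hθ₃ hθ₂ hθ₁ hinv' hq hqθ hodd hx hs
    (om := (eW hA hi (n + 1)).symm om) hom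
  refine ⟨om', ?_⟩
  have h' := congrArg (eW hA hi (n + 1)) h
  rw [eW_incl] at h'
  refine h'.trans ?_
  rw [map_add, eW_θ hθ hA hi hθA, LinearEquiv.apply_symm_apply]

end Vale.Agent.P216.H269
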