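import Vale.Agent.P216.B64.Contract
import Vale.Agent.P216.H269.PairU

/-!
# The contract [GOM] ⇒ [D2] (Theorem C of P216)

`KOut k X θ g`: nested levels `K j` of a space with involution (the based loops of `S^3`), the
equivariant map `q : X t → K j` (`t ≤ j`), and
* `G1`: the odd cohomology of `K` is ephemeral;
* `G2`: the generator `g n t` (`n` even) of the stable cohomology of `X t` is pulled back from `K`;
* `G3`: `q^*` is injective up to a shift of the levels, in even degrees.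

`KOut.d2` is the field `d2` of `T2Sys`.
-/

namespace Vale.Agent.P216.H269

open AS B64 Set

/-- The topological output. -/
structure KOut (k : Type) [Field k] {E : Type} [PseudoMetricSpace E] (X : ℝ → Set E) (θ : E → E)
    (g : ∀ (q : ℕ) (t : ℝ), HU k (X t) q) where
  /-- the ambient space (based loops of `S^3`) -/
  E' : Type
  [met : PseudoMetricSpace E']
  /-- the levels -/
  K : ℕ → Set E'
  mono : Monotone K
  /-- reversal -/
  θ' : E' → E'
  uθ' : ∀ j, UMap (K j) (K j) θ'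
  θθ' : ∀ j, ∀ w ∈ K j, θ' (θ' w) = w
  /-- the map -/
  q : E → E'
  uq : ∀ (t : ℝ) (j : ℕ), t ≤ j → UMap (X t) (K j) q
  qθ : ∀ t, ∀ x ∈ X t, q (θ x) = θ' (q x)
  /-- the odd cohomology is ephemeral -/
  G1 : ∀ n, n % 2 = 1 → ∀ j : ℕ, ∃ j' : ℕ, ∃ h : j ≤ j', ∀ y : HU k (K j') n, hres k (mono h) n y = 0
  /-- the even global classes come from `K` -/
  G2 : ∀ n, n % 2 = 0 → ∀ (t : ℝ) (j : ℕ), ∃ j' : ℕ, j ≤ j' ∧ ∃ h : t ≤ (j' : ℝ),
    ∃ c : HU k (K j') n, hpull k (uq t j' h) n c = g n t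
  /-- `q^*` is injective up to a shift -/
  G3 : ∀ n, n % 2 = 0 → ∀ j : ℕ, ∃ j' : ℕ, ∃ h : j ≤ j', ∃ T : ℝ, ∃ hT : T ≤ (j' : ℝ),
    ∀ z : HU k (K j') n, hpull k (uq T j' hT) n z = 0 → hres k (mono h) n z = 0

attribute [instance] KOut.met

namespace KOut

variable {k : Type} [Field k] {E : Type} [PseudoMetricSpace E] {X : ℝ → Set E} {θ : E → E}
  {g : ∀ (q : ℕ) (t : ℝ), HU k (X t) q} (O : KOut k X θ g)

theorem inv_a0 {E : Type} (A : Set E) : AS.Inv (a0 E) A := fun e => e.elim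

/-- A stable class on `X T`, `T ≥ t` arbitrary, comes from a class of `K` which is invariant under
the reversal on a given level `K j`. -/
theorem exists_inv (h2 : (2 : k) = 0) (hX : ∀ s t, s ≤ t → X s ⊆ X t)
    (uθ : ∀ t, UMap (X t) (X t) θ) (res_g : ∀ n s t (h : s ≤ t), hres k (hX s t h) n (g n t) = g n s)
    (θ_g : ∀ n t, hpull k (uθ t) n (g n t) = g n t)
    {n : ℕ} (hn : n % 2 = 0) (t : ℝ) (j : ℕ) :
    ∃ j' : ℕ, ∃ h : j ≤ j', ∃ ht : t ≤ (j' : ℝ), ∃ c : HU k (O.K j') n,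
      hpull k (O.uq t j' ht) n c = g n t ∧
      hres k (O.mono h) n (hpull k (O.uθ' j') n c) = hres k (O.mono h) n c := by
  obtain ⟨j₁, h₁, T, hT, h3⟩ := O.G3 n hn j
  obtain ⟨j₂, h₂, hT₂, c, hc⟩ := O.G2 n hn (max T t) j₁
  refine ⟨j₂, h₁.trans h₂, (le_max_right _ _).trans hT₂, c, ?_, ?_⟩
  · rw [← res_g n t (max T t) (le_max_right _ _), ← hc]
    obtain ⟨c, hc', rfl⟩ := H.exists_mk c
    rfl
  · rw [← sub_eq_zero, ← map_sub]
    have e : hres k (O.mono (h₁.trans h₂)) n (hpull k (O.uθ' j₂) n c - c) =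
        hres k (O.mono h₁) n (hres k (O.mono h₂) n (hpull k (O.uθ' j₂) n c - c)) := by
      rw [res_res]
    rw [e]
    apply h3
    have e1 : hpull k (O.uq T j₁ hT) n (hres k (O.mono h₂) n (hpull k (O.uθ' j₂) n c - c)) =
        hres k (hX T (max T t) (le_max_left _ _)) n
          (hpull k (uθ (max T t)) n (hpull k (O.uq (max T t) j₂ hT₂) n c) -
            hpull k (O.uq (max T t) j₂ hT₂) n c) := by
      rw [map_sub, map_sub, map_sub]
      congr 1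
      · obtain ⟨c, hc', rfl⟩ := H.exists_mk c
        refine H.mk_eq_mk.2 (T_le_Bc _ _ _ ⟨fun e => e.elim, 1, one_pos, fun x hx => ?_⟩)
        change c (O.θ' ∘ (O.q ∘ x)) - c (O.q ∘ (θ ∘ x)) = 0
        rw [show O.q ∘ (θ ∘ x) = O.θ' ∘ (O.q ∘ x) from funext fun i => O.qθ _ _ (hx.1 i),
          sub_self]
      · obtain ⟨c, hc', rfl⟩ := H.exists_mk c
        rfl
    rw [e1, hc, θ_g, sub_self, map_zero]

include O in
/-- **The field `d2` of `T2Sys`.** -/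
theorem d2 (h2 : (2 : k) = 0) (hX : ∀ s t, s ≤ t → X s ⊆ X t)
    (uθ : ∀ t, UMap (X t) (X t) θ) (θθ : ∀ t, ∀ x ∈ X t, θ (θ x) = x)
    (res_g : ∀ n s t (h : s ≤ t), hres k (hX s t h) n (g n t) = g n s)
    (θ_g : ∀ n t, hpull k (uθ t) n (g n t) = g n t)
    {n : ℕ} (hn : n % 2 = 0) {s t : ℝ} (hst : s ≤ t)
    {σ : Hr (a0 E) (c0 k) (X t) (X s) (n + 2)} {lam : k}
    (hσ : jU (c0 k) (X t) (X s) (n + 2) σ = lam • g (n + 2) t)
    {om : HU k (X s) (n + 1)}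
    (hom : δU (c0 k) (hX s t hst) (inv_a0 _) (n + 1) om =
      σ + pullR (c0 k) (uθ t) (hX s t hst) (uθ s).mapsX (n + 2) σ) :
    ∃ om' : HU k (X t) (n + 1), hres k (hX s t hst) (n + 1) (om' + hpull k (uθ t) (n + 1) om') =
      om + hpull k (uθ s) (n + 1) om := by
  obtain ⟨j₁, hj₁⟩ := exists_nat_ge t
  obtain ⟨j₂, h₂, hodd⟩ := O.G1 (n + 1) (by omega) j₁
  obtain ⟨j₃, h₃, ht₃, c, hc, hinv⟩ := O.exists_inv h2 hX uθ res_g θ_g (n := n + 2) (by omega) t j₂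
  refine d2_U h2 (hX s t hst) (inv_a0 _) (uθ t) (uθ s).mapsX (θθ t) (O.mono h₂) (O.mono h₃)
    (O.uθ' j₃) (O.uθ' j₂).mapsX (O.uθ' j₁).mapsX (O.θθ' j₂) (O.uq t j₁ hj₁) (O.qθ t) hodd
    (x := lam • c) ?_ (s := σ) ?_ hom
  · rw [map_smul, map_smul, map_smul]
    exact congrArg (lam • ·) hinv
  · rw [hσ, map_smul, map_smul, ← hc]
    congr 1
    obtain ⟨c, hc', rfl⟩ := H.exists_mk c
    rfl

end KOut

end Vale.Agent.P216.H269
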